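import Mathlib

/-!
Row 207 (S0320), block OUTER: sequences of derivatives, products, powers, inverses and their
scale invariant sizes.
-/

set_option autoImplicit false

open Set Filter
open scoped Topology

namespace Crest.Agent.N207.S.Out

noncomputable section

/-- `f (j+1)` is the derivative of `f j` on `U`. -/
def IsSeq (U : Set ℝ) (f : ℕ → ℝ → ℝ) : Prop :=
  ∀ j, ∀ x ∈ U, HasDerivAt (f j) (f (j + 1) x) x

/-- shift of a sequence -/
def sh (f : ℕ → ℝ → ℝ) : ℕ → ℝ → ℝ := fun j => f (j + 1)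

/-- Leibniz product -/
def mulS : ℕ → (ℕ → ℝ → ℝ) → (ℕ → ℝ → ℝ) → ℝ → ℝ
  | 0, f, g => fun x => f 0 x * g 0 x
  | j + 1, f, g => fun x => mulS j (sh f) g x + mulS j f (sh g) x

/-- Leibniz product as a sequence -/
def pr (f g : ℕ → ℝ → ℝ) : ℕ → ℝ → ℝ := fun j => mulS j f g

/-- scale invariant size at a point -/
def Sz (m : ℕ) (c : ℝ) (f : ℕ → ℝ → ℝ) (x : ℝ) : Prop := ∀ j ≤ m, |f j x| * x ^ j ≤ c

/-- falling factorial -/
def cf (p : ℝ) : ℕ → ℝ
  | 0 => 1
  | j + 1 => cf p j * (p - j)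

/-- derivatives of `x ^ p` -/
def pw (p : ℝ) : ℕ → ℝ → ℝ := fun j x => cf p j * x ^ (p - j)

/-- derivatives of `1 / g 0` -/
def rS (g : ℕ → ℝ → ℝ) : ℕ → ℝ → ℝ := fun j => deriv^[j] fun y => (g 0 y)⁻¹

variable {U : Set ℝ} {f g : ℕ → ℝ → ℝ} {m : ℕ} {c c' x : ℝ}

theorem IsSeq.sh (h : IsSeq U f) : IsSeq U (sh f) := fun j x hx => h (j + 1) x hx

theorem IsSeq.mono {U' : Set ℝ} (h : IsSeq U f) (hU : U' ⊆ U) : IsSeq U' f :=
  fun j x hx => h j x (hU hx)

theorem IsSeq.pr (hf : IsSeq U f) (hg : IsSeq U g) : IsSeq U (pr f g) := by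
  intro j
  induction j generalizing f g with
  | zero =>
    intro x hx
    exact (hf 0 x hx).mul (hg 0 x hx)
  | succ j ih =>
    intro x hx
    exact (ih hf.sh hg x hx).add (ih hf hg.sh x hx)

theorem IsSeq.add (hf : IsSeq U f) (hg : IsSeq U g) : IsSeq U (fun j x => f j x + g j x) :=
  fun j x hx => (hf j x hx).add (hg j x hx)

theorem IsSeq.sub (hf : IsSeq U f) (hg : IsSeq U g) : IsSeq U (fun j x => f j x - g j x) :=
  fun j x hx => (hf j x hx).sub (hg j x hx)

theorem IsSeq.cmul (a : ℝ) (hf : IsSeq U f) : IsSeq U (fun j x => a * f j x) :=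
  fun j x hx => (hf j x hx).const_mul a

theorem isSeq_pw (p : ℝ) (hU : U ⊆ Ioi 0) : IsSeq U (pw p) := by
  intro j x hx
  have h := (Real.hasDerivAt_rpow_const (x := x) (p := p - j) (Or.inl (ne_of_gt (hU hx)))).const_mul
    (cf p j)
  refine h.congr_deriv ?_
  simp only [pw, cf]
  push_cast
  rw [show p - ((j : ℝ) + 1) = p - j - 1 by ring]
  ring

theorem IsSeq.unique (hU : IsOpen U) (hf : IsSeq U f) (hg : IsSeq U g)
    (h0 : ∀ x ∈ U, f 0 x = g 0 x) : ∀ j, ∀ x ∈ U, f j x = g j x := by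
  intro j
  induction j with
  | zero => exact h0
  | succ j ih =>
    intro x hx
    have e : f j =ᶠ[𝓝 x] g j := by
      filter_upwards [hU.mem_nhds hx] with y hy using ih y hy
    exact (hf j x hx).unique ((hg j x hx).congr_of_eventuallyEq e)

theorem IsSeq.contDiffOn (hU : IsOpen U) (hf : IsSeq U f) (n : ℕ) : ContDiffOn ℝ n (f 0) U := by
  induction n generalizing f with
  | zero =>
    exact contDiffOn_zero.2 fun x hx => (hf 0 x hx).continuousAt.continuousWithinAt
  | succ n ih =>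
    rw [show ((n + 1 : ℕ) : WithTop ℕ∞) = (n : WithTop ℕ∞) + 1 by push_cast; rfl,
      contDiffOn_succ_iff_deriv_of_isOpen hU]
    refine ⟨fun x hx => (hf 0 x hx).differentiableAt.differentiableWithinAt, by simp, ?_⟩
    exact (ih hf.sh).congr fun x hx => (hf 0 x hx).deriv

theorem isSeq_iter (hU : IsOpen U) {u : ℝ → ℝ} (hu : ∀ n : ℕ, ContDiffOn ℝ n u U) :
    IsSeq U fun j => deriv^[j] u := by
  have key : ∀ j n : ℕ, ContDiffOn ℝ n (deriv^[j] u) U := by
    intro j
    induction j with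
    | zero => exact hu
    | succ j ih =>
      intro n
      rw [Function.iterate_succ_apply']
      exact (ih (n + 1)).deriv_of_isOpen hU (by push_cast; exact le_rfl)
  intro j x hx
  simp only [Function.iterate_succ_apply']
  exact (((key j 1).differentiableOn (by simp) x hx).differentiableAt (hU.mem_nhds hx)).hasDerivAt

theorem IsSeq.rS (hU : IsOpen U) (hg : IsSeq U g) (h0 : ∀ x ∈ U, g 0 x ≠ 0) : IsSeq U (rS g) :=
  isSeq_iter hU fun n => (hg.contDiffOn hU n).inv h0

theorem rS_zero (g : ℕ → ℝ → ℝ) (x : ℝ) : rS g 0 x = (g 0 x)⁻¹ := rfl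

theorem pr_zero (f g : ℕ → ℝ → ℝ) (x : ℝ) : pr f g 0 x = f 0 x * g 0 x := rfl

theorem pr_one (f g : ℕ → ℝ → ℝ) (x : ℝ) : pr f g 1 x = f 1 x * g 0 x + f 0 x * g 1 x := rfl

theorem pr_two (f g : ℕ → ℝ → ℝ) (x : ℝ) :
    pr f g 2 x = f 2 x * g 0 x + 2 * (f 1 x * g 1 x) + f 0 x * g 2 x := by
  simp only [pr, mulS, sh]; ring

theorem pw_zero (p x : ℝ) : pw p 0 x = x ^ p := by simp [pw, cf]

theorem pw_one (p : ℝ) (hx : 0 < x) : pw p 1 x = p * x ^ p / x := by
  simp only [pw, cf, Nat.cast_one, Nat.cast_zero]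
  rw [Real.rpow_sub hx, Real.rpow_one]; ring

theorem pw_two (p : ℝ) (hx : 0 < x) : pw p 2 x = p * (p - 1) * x ^ p / x ^ 2 := by
  simp only [pw, cf, Nat.cast_one, Nat.cast_zero, Nat.cast_ofNat]
  rw [Real.rpow_sub hx, Real.rpow_two]; ring

theorem Sz.mono (h : Sz m c f x) {m' : ℕ} (hm : m' ≤ m) (hc : c ≤ c') : Sz m' c' f x :=
  fun j hj => (h j (hj.trans hm)).trans hc

theorem Sz.le (h : Sz m c f x) (hc : c ≤ c') : Sz m c' f x := h.mono le_rfl hc

theorem Sz.nonneg (h : Sz m c f x) : 0 ≤ c := by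
  have := h 0 (Nat.zero_le _)
  simp only [pow_zero, mul_one] at this
  exact (abs_nonneg _).trans this

theorem Sz.congr (h : Sz m c f x) (e : ∀ j, g j x = f j x) : Sz m c g x :=
  fun j hj => by rw [e j]; exact h j hj

theorem Sz.sh (hx : 0 < x) (h : Sz (m + 1) c f x) : Sz m (c / x) (sh f) x := by
  intro j hj
  rw [le_div_iff₀ hx, mul_assoc, ← pow_succ]
  exact h (j + 1) (Nat.succ_le_succ hj)

theorem Sz.add (hx : 0 < x) (hf : Sz m c f x) (hg : Sz m c' g x) :
    Sz m (c + c') (fun j x => f j x + g j x) x := fun j hj => by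
  have := abs_add_le (f j x) (g j x)
  have h2 := pow_pos hx j
  nlinarith [hf j hj, hg j hj]

theorem Sz.sub (hx : 0 < x) (hf : Sz m c f x) (hg : Sz m c' g x) :
    Sz m (c + c') (fun j x => f j x - g j x) x := fun j hj => by
  have := abs_sub (f j x) (g j x)
  have h2 := pow_pos hx j
  nlinarith [hf j hj, hg j hj]

theorem Sz.cmul {a : ℝ} (ha : |a| ≤ 1) (hf : Sz m c f x) (hx : 0 < x) :
    Sz m c (fun j x => a * f j x) x := fun j hj => by
  have h2 := mul_nonneg (abs_nonneg (f j x)) (pow_pos hx j).le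
  rw [abs_mul, mul_assoc]
  nlinarith [hf j hj, abs_nonneg a]

theorem sz_mulS (hx : 0 < x) (j : ℕ) (hf : Sz j c f x) (hg : Sz j c' g x) :
    |mulS j f g x| * x ^ j ≤ 2 ^ j * c * c' := by
  induction j generalizing f g c c' with
  | zero =>
    have a := hf 0 le_rfl
    have b := hg 0 le_rfl
    simp only [pow_zero, mul_one, one_mul, mulS, abs_mul] at a b ⊢
    exact mul_le_mul a b (abs_nonneg _) ((abs_nonneg _).trans a)
  | succ j ih =>
    have a := ih (hf.sh hx) (hg.mono (Nat.le_succ j) le_rfl)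
    have b := ih (hf.mono (Nat.le_succ j) le_rfl) (hg.sh hx)
    have e1 : 2 ^ j * (c / x) * c' = 2 ^ j * c * c' / x := by ring
    have e2 : 2 ^ j * c * (c' / x) = 2 ^ j * c * c' / x := by ring
    rw [e1, le_div_iff₀ hx] at a
    rw [e2, le_div_iff₀ hx] at b
    have t := abs_add_le (mulS j (Out.sh f) g x) (mulS j f (Out.sh g) x)
    have h2 : 0 ≤ x ^ j * x := by positivity
    simp only [mulS, pow_succ]
    nlinarith [mul_le_mul_of_nonneg_right t h2]

theorem Sz.pr (hx : 0 < x) (hf : Sz m c f x) (hg : Sz m c' g x) :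
    Sz m (2 ^ m * c * c') (pr f g) x := fun j hj => by
  refine (sz_mulS hx j (hf.mono hj le_rfl) (hg.mono hj le_rfl)).trans ?_
  have := mul_nonneg hf.nonneg hg.nonneg
  have h2 : (2 : ℝ) ^ j ≤ 2 ^ m := pow_le_pow_right₀ (by norm_num) hj
  nlinarith

theorem abs_cf_le {p : ℝ} (hp : |p| ≤ 1) (j : ℕ) : |cf p j| ≤ j.factorial := by
  induction j with
  | zero => simp [cf]
  | succ j ih =>
    rw [cf, abs_mul, Nat.factorial_succ]
    push_cast
    have : |p - j| ≤ j + 1 := by
      have := abs_sub p j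
      rw [abs_of_nonneg (Nat.cast_nonneg (α := ℝ) j)] at this
      linarith
    nlinarith [abs_nonneg (cf p j), abs_nonneg (p - j)]

theorem sz_pw {p : ℝ} (hp : |p| ≤ 1) (hx : 0 < x) (m : ℕ) :
    Sz m (m.factorial * x ^ p) (pw p) x := fun j hj => by
  have e : |pw p j x| * x ^ j = |cf p j| * x ^ p := by
    rw [pw, abs_mul, abs_of_pos (Real.rpow_pos_of_pos hx _), mul_assoc, ← Real.rpow_natCast,
      ← Real.rpow_add hx]
    congr 2; ring
  rw [e]
  refine mul_le_mul_of_nonneg_right ((abs_cf_le hp j).trans ?_) (Real.rpow_pos_of_pos hx _).le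
  exact_mod_cast Nat.factorial_le hj

/-- constants for the inverse -/
def kc (C : ℝ) : ℕ → ℝ
  | 0 => 2
  | m + 1 => 2 + 2 ^ m * (2 ^ m * C * kc C m) * kc C m

theorem sz_rS (hU : IsOpen U) (hg : IsSeq U g) (h0 : ∀ x ∈ U, g 0 x ≠ 0) (hxU : x ∈ U)
    (hx : 0 < x) (hl : x ≤ 2 * g 0 x) {C : ℝ} (m : ℕ) (hC : Sz m C (sh g) x) :
    Sz m (kc C m / x) (rS g) x := by
  have hr := hg.rS hU h0
  have hg0 : 0 < g 0 x := by linarith
  have b0 : |rS g 0 x| ≤ 2 / x := by
    rw [rS_zero, abs_of_pos (inv_pos.2 hg0), inv_eq_one_div, div_le_div_iff₀ hg0 hx]; linarith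
  have e : ∀ j, sh (rS g) j x = -1 * pr (pr (sh g) (rS g)) (rS g) j x := fun j =>
    IsSeq.unique hU hr.sh (((hg.sh.pr hr).pr hr).cmul (-1)) (fun y hy => by
      have := ((hg 0 y hy).inv (h0 y hy)).unique (hr 0 y hy)
      simp only [pr_zero, rS_zero, Out.sh]
      rw [← this]
      field_simp) j x hxU
  induction m with
  | zero => intro j hj; obtain rfl := Nat.le_zero.1 hj; simpa [kc] using b0
  | succ m ih =>
    have hC' := hC.mono (Nat.le_succ m) le_rfl
    have a := ih hC'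
    have b := (hC'.pr hx a).pr hx a
    have bn := b.nonneg
    have e1 : 2 ^ m * (2 ^ m * C * (kc C m / x)) * (kc C m / x) =
        2 ^ m * (2 ^ m * C * kc C m) * kc C m / x / x := by ring
    rw [e1] at b bn
    have bn' : 0 ≤ 2 ^ m * (2 ^ m * C * kc C m) * kc C m / x := by
      have := mul_nonneg bn hx.le
      rwa [div_mul_cancel₀ _ hx.ne'] at this
    intro j hj
    rw [kc, add_div]
    rcases j with _ | j
    · simp only [pow_zero, mul_one]; linarith
    · have := b j (Nat.le_of_succ_le_succ hj)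
      rw [le_div_iff₀ hx] at this
      have e2 : |rS g (j + 1) x| = |Out.pr (Out.pr (Out.sh g) (rS g)) (rS g) j x| := by
        have := e j
        simp only [Out.sh] at this
        rw [this]; simp
      rw [e2, pow_succ, ← mul_assoc]
      have : 0 ≤ 2 / x := by positivity
      linarith

/-- time derivative of a product with a time independent factor -/
theorem hasDerivWithinAt_mulS {I : Set ℝ} {t : ℝ} {u : ℕ → ℝ → ℝ → ℝ} {v : ℕ → ℝ}
    (hu : ∀ i, HasDerivWithinAt (fun s => u i s x) (v i) I t) (j : ℕ) :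
    HasDerivWithinAt (fun s => mulS j f (fun i => u i s) x) (mulS j f (fun i _ => v i) x) I t := by
  induction j generalizing f u v with
  | zero => exact (hu 0).const_mul _
  | succ j ih =>
    exact (ih (f := sh f) hu).add (ih (u := fun i => u (i + 1)) (v := fun i => v (i + 1))
      fun i => hu (i + 1))

theorem mulS_congr {g' : ℕ → ℝ → ℝ} (j : ℕ) (h : ∀ i, g i x = g' i x) :
    mulS j f g x = mulS j f g' x := by
  induction j generalizing f g g' with
  | zero => simp only [mulS, h 0]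
  | succ j ih =>
    simp only [mulS]
    rw [ih (f := sh f) h, ih (g := sh g) (g' := sh g') fun i => h (i + 1)]

theorem continuousOn_mulS {R : Set (ℝ × ℝ)} {u : ℕ → ℝ → ℝ → ℝ}
    (hf : ∀ i, ContinuousOn (fun p : ℝ × ℝ => f i p.2) R)
    (hu : ∀ i, ContinuousOn (fun p : ℝ × ℝ => u i p.1 p.2) R) (j : ℕ) :
    ContinuousOn (fun p : ℝ × ℝ => mulS j f (fun i => u i p.1) p.2) R := by
  induction j generalizing f u with
  | zero => exact (hf 0).mul (hu 0)
  | succ j ih =>
    exact (ih (f := sh f) (fun i => hf (i + 1)) hu).add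
      (ih (u := fun i => u (i + 1)) hf fun i => hu (i + 1))

end

end Crest.Agent.N207.S.Out
private theorem rz_c34aeec4c6 : type_of% @_root_.Crest.Agent.N207.S.Out.cf.eq_def := @_root_.Crest.Agent.N207.S.Out.cf.eq_def -- L36
private theorem rz_c5b717735d : type_of% @_root_.Crest.Agent.N207.S.Out.cf.eq_1 := @_root_.Crest.Agent.N207.S.Out.cf.eq_1 -- L36
private theorem rz_7e09c71e9f : type_of% @_root_.Crest.Agent.N207.S.Out.kc.eq_def := @_root_.Crest.Agent.N207.S.Out.kc.eq_def -- L226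
private theorem rz_93c185cec8 : type_of% @_root_.Crest.Agent.N207.S.Out.kc.eq_1 := @_root_.Crest.Agent.N207.S.Out.kc.eq_1 -- L226
private theorem rz_e7f47e181d : type_of% @_root_.Crest.Agent.N207.S.Out.mulS.eq_def := @_root_.Crest.Agent.N207.S.Out.mulS.eq_def -- L25
private theorem rz_b03647836d : type_of% @_root_.Crest.Agent.N207.S.Out.mulS.eq_1 := @_root_.Crest.Agent.N207.S.Out.mulS.eq_1 -- L25
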