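import Crest.Agent.N207.S.Top.Defs
import Crest.Agent.N207.S.In.PostDefs
import Mathlib
import Crest.Agent.R202.Miranda

-- ▼ part N207/S/Top/Gl1
section

/-!
Row 207, S0320: elementary lemmas of the glue (helper55).
-/

set_option autoImplicit false

open Set Filter
open scoped Topology ContDiff

noncomputable section
namespace Crest.Agent.N207.S.Top

open Ex Ga

lemma sol_mono {S : Sys E3} {t u : ℝ} {U : ℝ → ℝ → E3} (h : IsSol S 0 t U) (hu : u ≤ t) :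
    IsSol S 0 u U where
  smooth := h.smooth.mono (prod_mono (Icc_subset_Icc le_rfl hu) subset_rfl)
  eqn s hs x hx :=
    (h.eqn s (Icc_subset_Icc le_rfl hu hs) x hx).mono (Icc_subset_Icc le_rfl hu)
  mem s hs x hx := h.mem s (Icc_subset_Icc le_rfl hu hs) x hx

lemma jb_mono {m : ℕ} {K K' e s : ℝ} {U : ℝ → ℝ → E3} (h : Rg.JB m K e U s) (hK : K ≤ K')
    (he : 0 ≤ e) : Rg.JB m K' e U s := fun x hx j hj =>
  ⟨(h x hx j hj).1.trans hK, (h x hx j hj).2.trans (mul_le_mul_of_nonneg_right hK he)⟩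

lemma wT_zero (U : ℝ → ℝ → E3) (s x : ℝ) : wT U 0 s x = U s x 0 + x := rfl
lemma wT_one (U : ℝ → ℝ → E3) (s x : ℝ) : wT U 1 s x = cj U 0 1 s x + 1 := rfl
lemma wT_add (U : ℝ → ℝ → E3) (j : ℕ) (s x : ℝ) : wT U (j + 2) s x = cj U 0 (j + 2) s x := by
  simp [wT, idS]

lemma wF_eq (U : ℝ → ℝ → E3) (s : ℝ) {x : ℝ} (hx : x < 1 / 3) :
    wF x (U s x 0) = wT U 0 s x := by
  rw [wT_zero, wF, m1_left hx]; ring

lemma rx_of_jb {K e X s : ℝ} {U : ℝ → ℝ → E3} (h : Rg.JB 40 K e U s) (he : 0 ≤ e)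
    (hX : X ≤ 1 / 4) (hw : ∀ x ∈ Icc 0 X, 0 ≤ wT U 0 s x) :
    RX (K + 1) e X (wT U) (cj U 2) s := by
  intro x hx j hj
  obtain ⟨h1, h2⟩ := h x ⟨hx.1, by linarith [hx.2]⟩ j hj
  rw [wF_eq U s (by linarith [hx.2])] at h1 h2
  have h0 := hw x hx
  constructor
  · rcases j with _ | j
    · simp only [pow_zero, one_mul, zero_add] at h1 ⊢
      rw [wT_one]
      exact (abs_add_le _ _).trans (by rw [abs_one]; exact add_le_add h1 le_rfl)
    · rw [wT_add, abs_mul, abs_of_nonneg (pow_nonneg h0 _)]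
      exact h1.trans (by linarith)
  · rw [abs_mul, abs_of_nonneg (pow_nonneg h0 _)]
    exact h2.trans (by nlinarith)

/-- the far bounds at time `s`. -/
def Far (X : ℝ) (U : ℝ → ℝ → E3) (s : ℝ) : Prop :=
  ∀ x ∈ Icc X 1, x ≤ 2 * wF x (U s x 0) ∧ |U s x 0| ≤ 2 * X ^ 2

/-- bounds of the reference profile. -/
def BM (M : ℝ) : Prop :=
  ∀ x ∈ Icc (0 : ℝ) 1, |m1 x| ≤ M ∧ |sig x| ≤ M ∧ |m2 x * (1 + m1 x ^ 2)| ≤ M

lemma exists_BM : ∃ M, 1 ≤ M ∧ BM M := by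
  have h1 := contDiff_m1.continuous
  have h2 := contDiff_m2.continuous
  have h3 := contDiff_sig.continuous
  obtain ⟨A, hA⟩ := (isCompact_Icc (a := (0 : ℝ)) (b := 1)).exists_bound_of_continuousOn
    (f := fun x => |m1 x| + |sig x| + |m2 x * (1 + m1 x ^ 2)|) (by fun_prop)
  refine ⟨max A 1, le_max_right _ _, fun x hx => ?_⟩
  have := (le_abs_self _).trans (hA x hx)
  have a := abs_nonneg (m1 x)
  have b := abs_nonneg (sig x)
  have c := abs_nonneg (m2 x * (1 + m1 x ^ 2))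
  have d := le_max_left A 1
  exact ⟨by linarith, by linarith, by linarith⟩

/-- compact pieces of the domain. -/
def KK (c R : ℝ) : Set (ℝ × E3) :=
  {y | y.1 ∈ Icc (0 : ℝ) 1 ∧ ‖y.2‖ ≤ R ∧ c ≤ wF y.1 (y.2 0) ∧ 1 / 2 ≤ 1 - m0 y.1 * y.2 2 ∧
    1 / 2 ≤ 1 - sig y.1 * y.2 0 ∧ 1 / 2 ≤ DF y.1 (y.2 0)}

lemma KK_sub {c : ℝ} (hc : 0 < c) (R : ℝ) : KK c R ⊆ Om := fun _ hy =>
  ⟨hc.trans_le hy.2.2.1, by linarith [hy.2.2.2.1], by linarith [hy.2.2.2.2.1],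
    by linarith [hy.2.2.2.2.2]⟩

lemma isCompact_KK (c R : ℝ) : IsCompact (KK c R) := by
  have h0 := contDiff_m0.continuous
  have h1 := contDiff_m1.continuous
  have h2 := contDiff_m2.continuous
  have h3 := contDiff_sig.continuous
  refine ((isCompact_Icc (a := (0 : ℝ)) (b := 1)).prod
    (isCompact_closedBall (0 : E3) R)).of_isClosed_subset ?_ fun y hy => ⟨hy.1, by simpa using hy.2.1⟩
  have a0 : IsClosed {y : ℝ × E3 | y.1 ∈ Icc (0 : ℝ) 1} := isClosed_Icc.preimage continuous_fst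
  have a1 : IsClosed {y : ℝ × E3 | ‖y.2‖ ≤ R} := isClosed_le (by fun_prop) continuous_const
  have a2 : IsClosed {y : ℝ × E3 | c ≤ wF y.1 (y.2 0)} :=
    isClosed_le continuous_const (by unfold wF; fun_prop)
  have a3 : IsClosed {y : ℝ × E3 | 1 / 2 ≤ 1 - m0 y.1 * y.2 2} :=
    isClosed_le continuous_const (by fun_prop)
  have a4 : IsClosed {y : ℝ × E3 | 1 / 2 ≤ 1 - sig y.1 * y.2 0} :=
    isClosed_le continuous_const (by fun_prop)
  have a5 : IsClosed {y : ℝ × E3 | 1 / 2 ≤ DF y.1 (y.2 0)} :=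
    isClosed_le continuous_const (by unfold DF; fun_prop)
  exact a0.inter (a1.inter (a2.inter (a3.inter (a4.inter a5))))

lemma m0_le {x : ℝ} (hx : x ∈ Icc (0 : ℝ) 1) : m0 x ≤ 2 * x := by
  rcases le_or_gt x (1 / 3) with h | h
  · rw [m0_left h]; linarith [hx.1]
  · have a := st_nonneg x
    have b := st_le_one x
    unfold m0
    nlinarith

lemma norm_le3 (v : E3) {C : ℝ} (h : ∀ i, |v i| ≤ C) : ‖v‖ ≤ 3 * C := by
  have h0 : 0 ≤ C := (abs_nonneg _).trans (h 0)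
  rw [EuclideanSpace.norm_eq, Real.sqrt_le_left (by positivity), Fin.sum_univ_three]
  have a := sq_le_sq' (abs_le.1 (h 0)).1 (abs_le.1 (h 0)).2
  have b := sq_le_sq' (abs_le.1 (h 1)).1 (abs_le.1 (h 1)).2
  have c := sq_le_sq' (abs_le.1 (h 2)).1 (abs_le.1 (h 2)).2
  simp only [Real.norm_eq_abs, sq_abs]
  nlinarith

lemma le_div_pow {c w K a : ℝ} {j : ℕ} (hc : 0 < c) (hc1 : c ≤ 1) (hw : c ≤ w) (hj : j ≤ 4)
    (ha : 0 ≤ a) (h : w ^ j * a ≤ K) : a ≤ K / c ^ 4 := by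
  rw [le_div_iff₀ (by positivity)]
  have h1 : c ^ 4 ≤ c ^ j := pow_le_pow_of_le_one hc.le hc1 hj
  have h2 : c ^ j ≤ w ^ j := pow_le_pow_left₀ hc.le hw j
  nlinarith

/-- pointwise bounds of all components and membership in the compact piece. -/
lemma mem_KK {K e X M c s x : ℝ} {U : ℝ → ℝ → E3} (hM : BM M) (hXM : 4 * X * M ≤ 1)
    (hX0 : 0 < X) (hX : X ≤ 1 / 4) (hK : 1 ≤ K) (he : 0 < e) (heK : 8 * K * e ≤ 1)
    (hj : Rg.JB 40 K e U s) (hf : Far X U s) (hp : Pre X (wT U) s)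
    (hP : ∀ j, cj U 1 j s x = cj U 0 (j + 1) s x) (h0 : |U s x 0| ≤ K + 1)
    (hc : 0 < c) (hc1 : c ≤ 1) (hx : x ∈ Icc (0 : ℝ) 1) (hw : c ≤ wF x (U s x 0)) :
    (∀ i, ∀ j ≤ 3, |cj U i j s x| ≤ (K + 1) / c ^ 4) ∧
      (x, U s x) ∈ KK c (3 * ((K + 1) / c ^ 4)) := by
  have e1 : e ≤ 1 := by nlinarith
  have hη : ∀ j ≤ 4, |cj U 0 j s x| ≤ (K + 1) / c ^ 4 := by
    intro j hj4
    rcases j with _ | j
    · exact le_div_pow (j := 0) hc hc1 hw (by norm_num) (abs_nonneg _) (by simpa [cj_zero] using h0)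
    · exact le_div_pow hc hc1 hw (by omega) (abs_nonneg _)
        ((hj x hx j (by omega)).1.trans (by linarith))
  have hall : ∀ i, ∀ j ≤ 3, |cj U i j s x| ≤ (K + 1) / c ^ 4 := by
    intro i j hj3
    fin_cases i
    · exact hη j (by omega)
    · exact (congrArg abs (hP j)).le.trans (hη (j + 1) (by omega))
    · exact le_div_pow hc hc1 hw (by omega) (abs_nonneg _)
        ((hj x hx j (by omega)).2.trans (by nlinarith))
  refine ⟨hall, hx, norm_le3 _ fun i => hall i 0 (by norm_num), hw, ?_, ?_, ?_⟩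
  · have h1 : x ≤ 2 * wF x (U s x 0) := by
      rcases le_total x X with h | h
      · rw [wF_eq U s (by linarith)]; exact (hp x ⟨hx.1, h⟩).1
      · exact (hf x ⟨h, hx.2⟩).1
    have h2 := (hj x hx 0 (by norm_num)).2
    simp only [zero_add, pow_one, jet, iteratedDerivWithin_zero] at h2
    have h3 := m0_le hx
    have h4 := m0_nonneg hx.1 hx.2
    have h5 := le_abs_self (U s x 2)
    have h6 := abs_nonneg (U s x 2)
    show 1 / 2 ≤ 1 - m0 x * U s x 2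
    nlinarith [mul_le_mul_of_nonneg_left h5 h4, mul_le_mul_of_nonneg_right h3 h6,
      mul_le_mul_of_nonneg_right h1 h6]
  · show 1 / 2 ≤ 1 - sig x * U s x 0
    rcases le_total x X with h | h
    · rw [sig_left (by linarith)]; norm_num
    · have h1 := (hf x ⟨h, hx.2⟩).2
      have h2 := (hM x hx).2.1
      have h3 := le_abs_self (sig x * U s x 0)
      rw [abs_mul] at h3
      have := mul_le_mul h2 h1 (abs_nonneg _) ((abs_nonneg _).trans h2)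
      nlinarith
  · show 1 / 2 ≤ 1 + m2 x * (1 + m1 x ^ 2) * U s x 0
    rcases le_total x X with h | h
    · rw [m2_left (by linarith)]; norm_num
    · have h1 := (hf x ⟨h, hx.2⟩).2
      have h2 := (hM x hx).2.2
      have h3 := neg_abs_le (m2 x * (1 + m1 x ^ 2) * U s x 0)
      rw [abs_mul] at h3
      have := mul_le_mul h2 h1 (abs_nonneg _) ((abs_nonneg _).trans h2)
      nlinarith

lemma far_zero {X M s : ℝ} {U : ℝ → ℝ → E3} (hM : BM M) (hXM : 4 * X * M ≤ 1) (hX0 : 0 < X)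
    (h : ∀ x ∈ Icc X 1, |U s x 0| ≤ X ^ 2) : Far X U s := by
  intro x hx
  have h1 := h x hx
  have h2 := (hM x ⟨hX0.le.trans hx.1, hx.2⟩).1
  have h3 := neg_abs_le (m1 x * U s x 0)
  rw [abs_mul] at h3
  have := mul_le_mul h2 h1 (abs_nonneg _) ((abs_nonneg _).trans h2)
  refine ⟨?_, by nlinarith⟩
  unfold wF
  nlinarith [hx.1]

lemma eta_le {S : Sys E3} {K e X t s x : ℝ} {U : ℝ → ℝ → E3} (ht : 0 < t) (hU : IsSol S 0 t U)
    (hs : s ∈ Icc 0 t) (hj : Rg.JB 40 K e U s) (hf : Far X U s) (hX0 : 0 < X) (hX : X ≤ 1 / 4)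
    (hx : x ∈ Icc (0 : ℝ) 1) : |U s x 0| ≤ K + 1 := by
  have h1 := (convex_Icc (0 : ℝ) 1).norm_image_sub_le_of_norm_hasDerivWithin_le
    (f := cj U 0 0 s) (f' := cj U 0 1 s) (C := K)
    (fun y hy => (jet_sol ht hU 0).dx 0 s y hs hy)
    (fun y hy => by simpa [cj] using (hj y hy 0 (by norm_num)).1) ⟨zero_le_one, le_rfl⟩ hx
  have h2 := (hf 1 ⟨by linarith, le_rfl⟩).2
  have hK : 0 ≤ K := by
    have := (hj x hx 0 (by norm_num)).1
    simp only [pow_zero, one_mul] at this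
    exact (abs_nonneg _).trans this
  simp only [cj_zero, Real.norm_eq_abs] at h1
  have h3 : |x - 1| ≤ 1 := by rw [abs_le]; constructor <;> linarith [hx.1, hx.2]
  have h4 := abs_add_le (U s x 0 - U s 1 0) (U s 1 0)
  rw [sub_add_cancel] at h4
  nlinarith [mul_le_mul_of_nonneg_left h3 hK]

lemma cont_mulS {Y : Type*} [TopologicalSpace Y] {R : Set Y} {F G : Y → ℕ → ℝ → ℝ} {x : Y → ℝ}
    (hF : ∀ i, ContinuousOn (fun y => F y i (x y)) R)
    (hG : ∀ i, ContinuousOn (fun y => G y i (x y)) R) (j : ℕ) :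
    ContinuousOn (fun y => Out.mulS j (F y) (G y) (x y)) R := by
  induction j generalizing F G with
  | zero => exact (hF 0).mul (hG 0)
  | succ j ih =>
    exact (ih (F := fun y => Out.sh (F y)) (fun i => hF (i + 1)) hG).add
      (ih (G := fun y => Out.sh (G y)) hF fun i => hG (i + 1))

end Crest.Agent.N207.S.Top
end
end

-- ▼ part N207/S/Top/Gl2
section

/-!
Row 207, S0320: the bootstrap inside the cube (helper55).
-/

set_option autoImplicit false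

open Set Filter
open scoped Topology ContDiff

noncomputable section
namespace Crest.Agent.N207.S.Top

open Ex Ga

/-- what is known at time `0`. -/
structure Dat0 (K0 e α T X : ℝ) (U : ℝ → ℝ → E3) : Prop where
  cp : Compat U 0
  jb : Rg.JB 40 K0 e U 0
  far : ∀ x ∈ Icc X 1, |U 0 x 0| ≤ X ^ 2
  di : DatI e T X (wT U) (cj U 2)
  dat : Out.Dat α T X (wT U) 0

/-- what the bootstrap gives at time `s`. -/
structure Good (K e T X : ℝ) (U : ℝ → ℝ → E3) (s : ℝ) : Prop where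
  out : Out.Out T X (wT U) s
  pre : Pre X (wT U) s
  inn : Inn T (wT U) s
  jb : Rg.JB 40 K e U s
  far : Far X U s
  cp : ∀ x ∈ Icc (0 : ℝ) 1, ∀ j, cj U 1 j s x = cj U 0 (j + 1) s x
  eta : ∀ x ∈ Icc (0 : ℝ) 1, |U s x 0| ≤ K + 1

/-- the constants and the specialised blocks. -/
structure Ctx {e : ℝ} {b : ℕ} (h : Rel e b) (α T X K0 K C1 M : ℝ) : Prop where
  hT : 0 < T
  TX : T ≤ X
  X1 : X ≤ 1 / 10 ^ 6
  K1 : 1 ≤ K
  K0K : K0 ≤ K
  eK : 8 * K * e ≤ 1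
  hM : BM M
  XM : 4 * X * M ≤ 1
  near : GaNear
  reg : ∀ (t : ℝ) (U : ℝ → ℝ → E3), 0 < t → t ≤ T → IsSol (sys h) 0 t U →
    (∀ s ∈ Icc 0 t, ∀ x ∈ Icc (0 : ℝ) 1, U s x 1 = jet 1 (fun y => U s y 0) x) →
    Rg.JB 40 K0 e U 0 → (∀ x ∈ Icc X 1, |U 0 x 0| ≤ X ^ 2) →
    (∀ s ∈ Icc 0 t, ∀ x ∈ Icc 0 X, x ≤ 2 * (x + U s x 0) ∧ |1 + U s x 1| ≤ 2) →
    ∀ s ∈ Icc 0 t, Rg.JB 40 K e U s ∧ ∀ x ∈ Icc X 1, x ≤ 2 * wF x (U s x 0) ∧
      |U s x 0 - U 0 x 0| ≤ X ^ 2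
  inner : ∀ (t : ℝ) (w wt k kt : ℕ → ℝ → ℝ → ℝ), XSol e 0 t (1 / 4) w wt k kt → 0 ≤ t → t < T →
    DatI e T X w k → (∀ s ∈ Icc 0 t, ∀ x ∈ Icc (0 : ℝ) (1 / 4), 0 < 1 - x * k 0 s x) →
    (∀ s ∈ Icc 0 t, Out.Out T X w s) →
    (∀ u ∈ Icc 0 t, (∀ s ∈ Icc 0 u, Pre X w s) → ∀ s ∈ Icc 0 u, RX (K + 1) e X w k s) →
    ∀ s ∈ Icc 0 t, Pre X w s ∧ Out.In C1 e T X w k s ∧ Inn T w s
  outer : ∀ (t t' : ℝ) (w wt k kt : ℕ → ℝ → ℝ → ℝ), XSol e 0 t' (1 / 4) w wt k kt → 0 ≤ t →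
    t ≤ t' → t' < T → Out.Dat α T X w 0 → (∀ s ∈ Icc 0 t, Out.Cube α T w s) →
    (∀ u ∈ Icc 0 t, (∀ s ∈ Icc 0 u, Out.Out T X w s) → ∀ s ∈ Icc 0 u, Out.In C1 e T X w k s) →
    (∀ s ∈ Icc 0 t, Out.Out T X w s) ∧ (t < t' → ∀ j < 3, |Out.nn α T w j t| = 1 / 100 →
      ∃ s, t < s ∧ s ≤ t' ∧ 1 / 100 < |Out.nn α T w j s|)
  post : ∀ (w wt k kt : ℕ → ℝ → ℝ → ℝ),
    (∀ t ∈ Ico 0 T, XSol e 0 t X w wt k kt ∧ Reg1 (K + 1) e 0 t X w k ∧ Out.Out T X w t) →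
    (∀ t ∈ Ico 0 T, ∀ x ∈ Icc 0 ((T - t) / 200),
      x ≤ w 0 t x ∧ 1 / 8 * (T - t) ^ 3 ≤ w 0 t x ∧ |w 1 t x| ≤ 2) →
    ∃ C : ℝ, ∀ t ∈ Ico 0 T, ∀ x ∈ Icc 0 X,
      |scal e x (w 0 t x) (w 1 t x) (w 2 t x) (k 0 t x) (k 1 t x)| ≤ C

variable {e : ℝ} {b : ℕ} {h : Rel e b} {α T X K0 K C1 M : ℝ} {U : ℝ → ℝ → E3} {t t' : ℝ}

lemma Ctx.X0 (c : Ctx h α T X K0 K C1 M) : 0 < X := c.hT.trans_le c.TX

lemma Ctx.X4 (c : Ctx h α T X K0 K C1 M) : X < 1 / 4 := c.X1.trans_lt (by norm_num)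

lemma Ctx.reg' (c : Ctx h α T X K0 K C1 M) (ht' : 0 < t') (hT : t' < T)
    (hU : IsSol (sys h) 0 t' U) (d : Dat0 K0 e α T X U) {u : ℝ} (hu : u ∈ Icc 0 t')
    (hp : ∀ s ∈ Icc 0 u, Pre X (wT U) s) : ∀ s ∈ Icc 0 u, Rg.JB 40 K e U s ∧ Far X U s := by
  have hP := (c.near e b h t' U ht' hU d.cp).1
  rcases hu.1.eq_or_lt with h0 | h0
  · intro s hs
    obtain rfl : s = 0 := le_antisymm (h0 ▸ hs.2) hs.1
    exact ⟨jb_mono d.jb c.K0K h.1.le, far_zero c.hM c.XM c.X0 d.far⟩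
  · intro s hs
    have hsub : Icc 0 u ⊆ Icc 0 t' := Icc_subset_Icc le_rfl hu.2
    obtain ⟨h1, h2⟩ := c.reg u U h0 (hu.2.trans hT.le) (sol_mono hU hu.2)
      (fun s hs x hx => hP s (hsub hs) x hx 0) d.jb d.far (fun s hs x hx => by
        obtain ⟨a1, a2⟩ := hp s hs x hx
        have a3 := hP s (hsub hs) x ⟨hx.1, by linarith [hx.2, c.X4]⟩ 0
        rw [wT_one, ← a3, add_comm] at a2
        rw [wT_zero, add_comm] at a1
        exact ⟨a1, a2⟩) s hs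
    refine ⟨h1, fun x hx => ⟨(h2 x hx).1, ?_⟩⟩
    have a := abs_add_le (U s x 0 - U 0 x 0) (U 0 x 0)
    rw [sub_add_cancel] at a
    linarith [(h2 x hx).2, d.far x hx]

lemma Ctx.inner' (c : Ctx h α T X K0 K C1 M) (ht' : 0 < t') (hT : t' < T)
    (hU : IsSol (sys h) 0 t' U) (d : Dat0 K0 e α T X U) {u : ℝ} (hu : u ∈ Icc 0 t')
    (ho : ∀ s ∈ Icc 0 u, Out.Out T X (wT U) s) : ∀ s ∈ Icc 0 u, Pre X (wT U) s ∧
      Out.In C1 e T X (wT U) (cj U 2) s ∧ Inn T (wT U) s := by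
  have hX := (c.near e b h t' U ht' hU d.cp).2
  have hsub : Icc 0 u ⊆ Icc 0 t' := Icc_subset_Icc le_rfl hu.2
  refine c.inner u _ _ _ _ (hX.mono le_rfl hu.2) hu.1 (hu.2.trans_lt hT) d.di
    (fun s hs x hx => ?_) ho fun v hv hp s hs => ?_
  · have := (hU.mem s (hsub hs) x ⟨hx.1, by linarith [hx.2]⟩).2.1
    rwa [m0_left (by linarith [hx.2] : x ≤ 1 / 3)] at this
  · refine rx_of_jb (c.reg' ht' hT hU d (hsub hv) hp s hs).1 h.1.le c.X4.le fun x hx => ?_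
    linarith [(hp s hs x hx).1, hx.1]

/-- **the bootstrap**. -/
theorem Ctx.boot (c : Ctx h α T X K0 K C1 M) (ht' : 0 < t') (hT : t' < T)
    (hU : IsSol (sys h) 0 t' U) (d : Dat0 K0 e α T X U) (ht : t ∈ Icc 0 t')
    (hc : ∀ s ∈ Icc 0 t, Out.Cube α T (wT U) s) :
    (∀ s ∈ Icc 0 t, Good K e T X U s) ∧ (t < t' → ∀ j < 3, |Out.nn α T (wT U) j t| = 1 / 100 →
      ∃ s, t < s ∧ s ≤ t' ∧ 1 / 100 < |Out.nn α T (wT U) j s|) := by
  obtain ⟨hP, hX⟩ := c.near e b h t' U ht' hU d.cp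
  have hsub : Icc 0 t ⊆ Icc 0 t' := Icc_subset_Icc le_rfl ht.2
  obtain ⟨ho, htr⟩ := c.outer t t' _ _ _ _ hX ht.1 ht.2 hT d.dat hc
    fun u hu ho s hs => (c.inner' ht' hT hU d (hsub hu) ho s hs).2.1
  refine ⟨fun s hs => ?_, htr⟩
  have hi := c.inner' ht' hT hU d ht ho
  have hr := c.reg' ht' hT hU d ht (fun s hs => (hi s hs).1) s hs
  exact ⟨ho s hs, (hi s hs).1, (hi s hs).2.2, hr.1, hr.2, hP s (hsub hs),
    fun x hx => eta_le ht' hU (hsub hs) hr.1 hr.2 c.X0 c.X4.le hx⟩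

lemma Ctx.w_low (c : Ctx h α T X K0 K C1 M) {s x : ℝ} (g : Good K e T X U s) (hs : 0 ≤ s)
    (hst : s ≤ t) (ht : t < T) (hx : x ∈ Icc (0 : ℝ) 1) : (T - t) ^ 3 / 8 ≤ wF x (U s x 0) := by
  have h1 : (T - t) ^ 3 ≤ (T - s) ^ 3 := pow_le_pow_left₀ (by linarith) (by linarith) 3
  have hX := c.X1
  have hTX := c.TX
  have hτ : 0 < T - s := by linarith
  rcases le_total x ((T - s) / 200) with h2 | h2
  · rw [wF_eq U s (by linarith)]
    linarith [g.inn.1 x ⟨hx.1, h2⟩, hx.1]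
  · have h3 : x ≤ 2 * wF x (U s x 0) := by
      rcases le_total x X with h | h
      · rw [wF_eq U s (by linarith)]; exact (g.pre x ⟨hx.1, h⟩).1
      · exact (g.far x ⟨h, hx.2⟩).1
    have h4 : (T - s) ^ 2 ≤ 1 / 50 := by nlinarith
    nlinarith

lemma Ctx.mem (c : Ctx h α T X K0 K C1 M) {s x a : ℝ} (g : Good K e T X U s) (ha : 0 < a)
    (ha1 : a ≤ 1) (hx : x ∈ Icc (0 : ℝ) 1) (hw : a ≤ wF x (U s x 0)) :
    (∀ i, ∀ j ≤ 3, |cj U i j s x| ≤ (K + 1) / a ^ 4) ∧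
      (x, U s x) ∈ KK a (3 * ((K + 1) / a ^ 4)) :=
  mem_KK c.hM c.XM c.X0 c.X4.le c.K1 h.1 c.eK g.jb g.far g.pre (g.cp x hx) (g.eta x hx) ha ha1 hx hw

lemma Ctx.reg1 (c : Ctx h α T X K0 K C1 M) (g : ∀ s ∈ Icc 0 t, Good K e T X U s) :
    Reg1 (K + 1) e 0 t X (wT U) (cj U 2) := by
  intro s x hs hx
  have hp := (g s hs).pre
  have r := rx_of_jb (g s hs).jb h.1.le c.X4.le (fun x hx => by
    linarith [(hp x hx).1, hx.1]) x hx
  have r0 := r 0 (by norm_num)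
  have r1 := r 1 (by norm_num)
  simp only [pow_zero, one_mul, zero_add, pow_one] at r0 r1
  exact ⟨r0.1, r1.1, r0.2, r1.2, (hp x hx).1⟩

/-- the tip closes linearly. -/
lemma Ctx.tip (c : Ctx h α T X K0 K C1 M) {s : ℝ} {wt k kt : ℕ → ℝ → ℝ → ℝ}
    (hX : XSol e 0 s X (wT U) wt k kt) (g : Good K e T X U s) (hs : 0 ≤ s) (hT : s < T) :
    0 ≤ U s 0 0 ∧ U s 0 0 ≤ (T - s) / 50 := by
  have hX1 := c.X1
  have hTX := c.TX
  have hx : (T - s) / 200 ∈ Icc 0 X := ⟨by linarith, by linarith⟩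
  have h0 : (0 : ℝ) ∈ Icc 0 X := ⟨le_rfl, c.X0.le⟩
  have h1 := (convex_Icc (0 : ℝ) X).norm_image_sub_le_of_norm_hasDerivWithin_le
    (f := wT U 0 s) (f' := wT U 1 s) (C := 2)
    (fun y hy => hX.jw.dx 0 s y ⟨hs, le_rfl⟩ hy) (fun y hy => (g.pre y hy).2) hx h0
  have h2 := (g.out.1 _ ⟨le_rfl, hx.2⟩).1
  have h3 : ((T - s) / 200) ^ (11 / 4 : ℝ) ≤ (T - s) / 200 := by
    have := Real.rpow_le_rpow_of_exponent_ge (x := (T - s) / 200) (y := 11 / 4) (z := 1)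
      (by linarith) (by linarith) (by norm_num)
    rwa [Real.rpow_one] at this
  have h4 := (g.pre 0 h0).1
  simp only [Real.norm_eq_abs, zero_sub, abs_neg, abs_of_nonneg hx.1] at h1
  have h5 := (abs_le.1 h1).2
  have h6 := (abs_le.1 h2).2
  rw [wT_zero U s 0, add_zero] at h4 h5
  exact ⟨by linarith, by linarith⟩

end Crest.Agent.N207.S.Top
end
end

-- ▼ part N207/S/Out/Exit

/-!
Row 207 (S0320), block OUTER: the abstract shooting (exit) lemma.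
-/

set_option autoImplicit false

open Set Filter
open scoped Topology

namespace Crest.Agent.N207.S.Out

/-- the parameter cube -/
def cube (ι : Type) : Set (ι → ℝ) := Set.pi Set.univ fun _ => Set.Icc (-1 : ℝ) 1

/-- the data of a shooting argument -/
structure Shoot {ι : Type} {P : Type} [TopologicalSpace P] (c : (ι → ℝ) → P) (T η : ℝ)
    (D : Set (P × ℝ)) (n : P → ℝ → ι → ℝ) : Prop where
  hT : 0 < T
  hη : 0 < η
  hc : ContinuousOn c (cube ι)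
  zero_mem : ∀ p, (p, (0 : ℝ)) ∈ D
  down : ∀ p t s, (p, t) ∈ D → 0 ≤ s → s ≤ t → (p, s) ∈ D
  opn : ∀ y ∈ D, ∀ᶠ z in 𝓝 y, 0 ≤ z.2 → z ∈ D
  cont : ∀ j, ContinuousOn (fun y : P × ℝ => n y.1 y.2 j) (D ∩ {y | 0 ≤ y.2 ∧ y.2 < T})
  extend : ∀ p t, 0 < t → t < T → (∀ s, 0 ≤ s → s < t → (p, s) ∈ D ∧ ∀ j, |n p s j| ≤ η) →
    (p, t) ∈ D
  trans : ∀ p t t', 0 ≤ t → t < t' → t' < T → (p, t') ∈ D →
    (∀ s, 0 ≤ s → s ≤ t → ∀ j, |n p s j| ≤ η) → ∀ j, |n p t j| = η →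
    ∃ s, t < s ∧ s ≤ t' ∧ η < |n p s j|
  face1 : ∀ a ∈ cube ι, ∀ j, a j = 1 → η < n (c a) 0 j
  face0 : ∀ a ∈ cube ι, ∀ j, a j = -1 → n (c a) 0 j < -η

section
variable {ι : Type} [Fintype ι] {P : Type} [TopologicalSpace P] {c : (ι → ℝ) → P} {T η : ℝ}
  {D : Set (P × ℝ)} {n : P → ℝ → ι → ℝ}

/-- times at which the boundary of the cube has been reached -/
def bad (T η : ℝ) (D : Set (P × ℝ)) (n : P → ℝ → ι → ℝ) (p : P) : Set ℝ :=
  {s | 0 ≤ s ∧ s < T ∧ (p, s) ∈ D ∧ ∃ j, η ≤ |n p s j|}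

theorem Shoot.ev_in (h : Shoot c T η D n) {p : P} {s : ℝ} (h0 : 0 ≤ s) (h1 : s < T)
    (hD : (p, s) ∈ D) (hn : ∀ j, |n p s j| < η) :
    ∀ᶠ z in 𝓝 (p, s), 0 ≤ z.2 → z ∈ D ∧ z.2 < T ∧ ∀ j, |n z.1 z.2 j| < η := by
  have e1 := h.opn _ hD
  have e2 : ∀ᶠ z : P × ℝ in 𝓝 (p, s), z.2 < T :=
    continuous_snd.continuousAt.eventually (gt_mem_nhds h1)
  have e3 : ∀ j, ∀ᶠ z : P × ℝ in 𝓝 (p, s),
      z ∈ D ∩ {y | 0 ≤ y.2 ∧ y.2 < T} → |n z.1 z.2 j| < η := fun j => by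
    have := ((h.cont j) (p, s) ⟨hD, h0, h1⟩).abs.eventually (gt_mem_nhds (hn j))
    exact eventually_nhdsWithin_iff.1 this
  filter_upwards [e1, e2, eventually_all.2 e3] with z a b d hz
  exact ⟨a hz, b, fun j => d j ⟨a hz, hz, b⟩⟩

theorem Shoot.ev_out (h : Shoot c T η D n) {p : P} {s : ℝ} (h0 : 0 ≤ s) (h1 : s < T)
    (hD : (p, s) ∈ D) {j : ι} (hn : η < |n p s j|) :
    ∀ᶠ q in 𝓝 p, s ∈ bad T η D n q := by
  have e1 := h.opn _ hD
  have e3 : ∀ᶠ z : P × ℝ in 𝓝 (p, s),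
      z ∈ D ∩ {y | 0 ≤ y.2 ∧ y.2 < T} → η < |n z.1 z.2 j| := by
    have := ((h.cont j) (p, s) ⟨hD, h0, h1⟩).abs.eventually (lt_mem_nhds hn)
    exact eventually_nhdsWithin_iff.1 this
  have hc : Tendsto (fun q : P => (q, s)) (𝓝 p) (𝓝 (p, s)) :=
    (continuous_id.prodMk continuous_const).continuousAt
  filter_upwards [hc.eventually e1, hc.eventually e3] with q a b
  exact ⟨h0, h1, a h0, j, (b ⟨a h0, h0, h1⟩).le⟩

theorem Shoot.no_bad (h : Shoot c T η D n) {p : P} {t : ℝ}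
    (hb : ∀ s, s < t → s ∉ bad T η D n p) :
    ∀ s, 0 ≤ s → s < t → s < T → (p, s) ∈ D ∧ ∀ j, |n p s j| < η := by
  by_contra hcon
  push Not at hcon
  set S : Set ℝ := {s | 0 ≤ s ∧ s < t ∧ s < T ∧ ¬ ((p, s) ∈ D ∧ ∀ j, |n p s j| < η)} with hS
  have hne : S.Nonempty := by
    obtain ⟨s, a, b, d, e⟩ := hcon
    refine ⟨s, a, b, d, fun f => ?_⟩
    obtain ⟨j, hj⟩ := e f.1
    exact absurd (f.2 j) (not_lt.2 hj)
  have hbd : BddBelow S := ⟨0, fun s hs => hs.1⟩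
  set s0 := sInf S with hs0
  have h0 : 0 ≤ s0 := le_csInf hne fun s hs => hs.1
  obtain ⟨s1, hs1⟩ := hne
  have hle : s0 ≤ s1 := csInf_le hbd hs1
  have ht : s0 < t := hle.trans_lt hs1.2.1
  have hT : s0 < T := hle.trans_lt hs1.2.2.1
  have hbef : ∀ s, 0 ≤ s → s < s0 → (p, s) ∈ D ∧ ∀ j, |n p s j| < η := by
    intro s a b
    by_contra f
    exact absurd (csInf_le hbd ⟨a, b.trans ht, b.trans hT, f⟩) (not_le.2 b)
  have hD : (p, s0) ∈ D := by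
    rcases h0.eq_or_lt with e | e
    · rw [← e]; exact h.zero_mem p
    · exact h.extend p s0 e hT fun s a b => ⟨(hbef s a b).1, fun j => ((hbef s a b).2 j).le⟩
  have hn : ∀ j, |n p s0 j| < η := fun j => by
    by_contra f
    exact hb s0 ht ⟨h0, hT, hD, j, not_lt.1 f⟩
  have hc : Tendsto (fun s : ℝ => (p, s)) (𝓝 s0) (𝓝 (p, s0)) :=
    (continuous_const.prodMk continuous_id).continuousAt
  obtain ⟨ε, hε, hball⟩ := Metric.eventually_nhds_iff.1 (hc.eventually (h.ev_in h0 hT hD hn))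
  have : s0 + ε ≤ s0 := by
    refine le_csInf ⟨s1, hs1⟩ fun s hs => ?_
    by_contra f
    have f1 : s0 ≤ s := csInf_le hbd hs
    have := hball (y := s) (by rw [Real.dist_eq, abs_lt]; constructor <;> linarith) hs.1
    exact hs.2.2.2 ⟨this.1, this.2.2⟩
  linarith

theorem Shoot.inf_mem (h : Shoot c T η D n) {p : P} (hne : (bad T η D n p).Nonempty) :
    sInf (bad T η D n p) ∈ bad T η D n p := by
  have hbd : BddBelow (bad T η D n p) := ⟨0, fun s hs => hs.1⟩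
  set s0 := sInf (bad T η D n p) with hs0
  have h0 : 0 ≤ s0 := le_csInf hne fun s hs => hs.1
  obtain ⟨s1, hs1⟩ := hne
  have hle : s0 ≤ s1 := csInf_le hbd hs1
  have hT : s0 < T := hle.trans_lt hs1.2.1
  have hD : (p, s0) ∈ D := h.down p s1 s0 hs1.2.2.1 h0 hle
  refine ⟨h0, hT, hD, ?_⟩
  by_contra f
  push Not at f
  have hc : Tendsto (fun s : ℝ => (p, s)) (𝓝 s0) (𝓝 (p, s0)) :=
    (continuous_const.prodMk continuous_id).continuousAt
  obtain ⟨ε, hε, hball⟩ := Metric.eventually_nhds_iff.1 (hc.eventually (h.ev_in h0 hT hD f))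
  have : s0 + ε ≤ s0 := by
    refine le_csInf ⟨s1, hs1⟩ fun s hs => ?_
    by_contra g
    have f1 : s0 ≤ s := csInf_le hbd hs
    have := hball (y := s) (by rw [Real.dist_eq, abs_lt]; constructor <;> linarith) hs.1
    obtain ⟨j, hj⟩ := hs.2.2.2
    exact absurd (this.2.2 j) (not_lt.2 hj)
  linarith

theorem Shoot.cont_inf (h : Shoot c T η D n) (hne : ∀ p, (bad T η D n p).Nonempty) :
    Continuous fun p => sInf (bad T η D n p) := by
  refine continuous_iff_continuousAt.2 fun p => ?_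
  have hbd : ∀ q, BddBelow (bad T η D n q) := fun q => ⟨0, fun s hs => hs.1⟩
  have hm := h.inf_mem (hne p)
  set s0 := sInf (bad T η D n p) with hs0
  have hbef : ∀ s, 0 ≤ s → s < s0 → (p, s) ∈ D ∧ ∀ j, |n p s j| < η := fun s a b =>
    h.no_bad (t := s0) (fun s' b' f => absurd (csInf_le (hbd p) f) (not_le.2 b')) s a b
      (b.trans hm.2.1)
  refine tendsto_order.2 ⟨fun a ha => ?_, fun a ha => ?_⟩
  · rcases lt_or_ge a 0 with a0 | a0
    · exact Eventually.of_forall fun q => a0.trans_le (h.inf_mem (hne q)).1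
    have hK : IsCompact (Icc (0 : ℝ) a) := isCompact_Icc
    have := hK.eventually_forall_of_forall_eventually (x₀ := p)
      (P := fun q s => 0 ≤ s → (q, s) ∈ D ∧ s < T ∧ ∀ j, |n q s j| < η) fun s hs =>
        h.ev_in hs.1 ((hs.2.trans_lt ha).trans hm.2.1) (hbef s hs.1 (hs.2.trans_lt ha)).1
          (hbef s hs.1 (hs.2.trans_lt ha)).2
    filter_upwards [this] with q hq
    by_contra f
    have hq' := h.inf_mem (hne q)
    obtain ⟨j, hj⟩ := hq'.2.2.2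
    exact absurd ((hq _ ⟨hq'.1, not_lt.1 f⟩ hq'.1).2.2 j) (not_lt.2 hj)
  · have key : ∃ s j, 0 ≤ s ∧ s < T ∧ s < a ∧ (p, s) ∈ D ∧ η < |n p s j| := by
      by_cases hgt : ∃ j, η < |n p s0 j|
      · obtain ⟨j, hj⟩ := hgt
        exact ⟨s0, j, hm.1, hm.2.1, ha, hm.2.2.1, hj⟩
      push Not at hgt
      obtain ⟨j, hj⟩ := hm.2.2.2
      have hc : Tendsto (fun s : ℝ => (p, s)) (𝓝 s0) (𝓝 (p, s0)) :=
        (continuous_const.prodMk continuous_id).continuousAt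
      have e1 := hc.eventually (h.opn _ hm.2.2.1)
      have e2 : ∀ᶠ s in 𝓝 s0, s < T := gt_mem_nhds hm.2.1
      have e3 : ∀ᶠ s in 𝓝 s0, s < a := gt_mem_nhds ha
      obtain ⟨t', ⟨⟨b1, b2⟩, b3⟩, b4⟩ :=
        ((((e1.and e2).and e3).filter_mono nhdsWithin_le_nhds).and
          (self_mem_nhdsWithin (s := Ioi s0))).exists
      have b5 : s0 < t' := b4
      have b6 : (p, t') ∈ D := b1 (hm.1.trans b5.le)
      obtain ⟨s, c1, c2, c3⟩ := h.trans p s0 t' hm.1 b5 b2 b6 (fun s a b j => by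
        rcases b.eq_or_lt with e | e
        · rw [e]; exact hgt j
        · exact ((hbef s a e).2 j).le) j (le_antisymm (hgt j) hj)
      have c0 : 0 ≤ s := hm.1.trans c1.le
      exact ⟨s, j, c0, c2.trans_lt b2, c2.trans_lt b3, h.down p t' s b6 c0 c2, c3⟩
    obtain ⟨s, j, a0, a1, a2, a3, a4⟩ := key
    filter_upwards [h.ev_out a0 a1 a3 a4] with q hq
    exact (csInf_le (hbd q) hq).trans_lt a2

/-- **Shooting lemma**: some member of the family stays in the cube on `[0,T)`. -/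
theorem Shoot.exit (h : Shoot c T η D n) :
    ∃ p, ∀ s, 0 ≤ s → s < T → (p, s) ∈ D ∧ ∀ j, |n p s j| < η := by
  by_contra hcon
  have hne : ∀ p, (bad T η D n p).Nonempty := fun p => by
    by_contra f
    exact hcon ⟨p, fun s a b => h.no_bad (t := T) (fun s' _ g => f ⟨s', g⟩) s a b b⟩
  have hbd : ∀ q, BddBelow (bad T η D n q) := fun q => ⟨0, fun s hs => hs.1⟩
  have hc := h.cont_inf hne
  have hz : ∀ q, (0 : ℝ) ∈ bad T η D n q → sInf (bad T η D n q) = 0 := fun q hq =>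
    le_antisymm (csInf_le (hbd q) hq) (h.inf_mem (hne q)).1
  obtain ⟨a, -, ha⟩ := Crest.Agent.R202.poincare_miranda
    (fun a j => n (c a) (sInf (bad T η D n (c a))) j) (by
      refine continuousOn_pi.2 fun j => ?_
      refine (h.cont j).comp (f := fun a => (c a, sInf (bad T η D n (c a))))
        (h.hc.prodMk (hc.comp_continuousOn h.hc)) fun a _ => ?_
      have := h.inf_mem (hne (c a))
      exact ⟨this.2.2.1, this.1, this.2.1⟩)
    (fun a ha j hj => by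
      have f := h.face1 a ha j hj
      have hη := h.hη
      rw [hz _ ⟨le_rfl, h.hT, h.zero_mem _, j, f.le.trans (le_abs_self _)⟩]
      linarith)
    (fun a ha j hj => by
      have f := h.face0 a ha j hj
      have hη := h.hη
      rw [hz _ ⟨le_rfl, h.hT, h.zero_mem _, j, by linarith [neg_abs_le (n (c a) 0 j)]⟩]
      linarith)
  obtain ⟨j, hj⟩ := (h.inf_mem (hne (c a))).2.2.2
  have := ha j
  rw [this, abs_zero] at hj
  exact absurd h.hη (not_lt.2 hj)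

end

end Crest.Agent.N207.S.Out
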